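import Vale.Agent.P076N.Fun

/-!
# P076N / K56 : the count in one cube from the light energy bound (second half of KEY)

`Cfg` are the data, `Cfg.Ok` the hypotheses, `K56` the statement.
-/

set_option linter.all false

open MeasureTheory Finset

namespace Vale.Agent.P076N.K56

open Vale.Agent.P076 Vale.Agent.P076N

noncomputable section

variable {d : ℕ}

abbrev Zd (d : ℕ) := Fin d → ℤ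

/-- the point `k / s` -/
def ct (s : ℝ) (k : Zd d) : E d := WithLp.toLp 2 fun l => (k l : ℝ) / s

/-- the cap (side `1 / r`) of the cell `θ` (side `1 / M`) -/
def cap (r M : ℝ) (θ : Zd d) : Zd d := fun l => ⌊r * θ l / M⌋

/-- the data -/
structure Cfg (d : ℕ) where
  K : ℝ
  r : ℝ
  M : ℝ
  ρ : ℝ
  W : ℝ
  T : ℝ
  α : ℝ
  Y : ℝ
  En : ℝ
  φ : ℝ
  A : Finset (E d × ℝ)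
  Θ : Finset (Zd d)
  g : Zd d → E d → ℂ
  Lt : Zd d × ℤ → Finset (Zd d)
  z : E d × ℝ

open Classical in
/-- the hypotheses -/
structure Cfg.Ok (c : Cfg d) (a : ℕ) (B : ℝ) : Prop where
  hK : c.K ^ 3 ≤ c.r
  hr : 3 * c.r ≤ c.M
  hM : c.K * c.M ^ 3 ≤ c.ρ
  hW : c.K * c.W ≤ c.M * c.ρ
  hρ : c.r * c.ρ ≤ c.W
  hT : c.W ≤ c.T
  hTa : c.T ≤ c.K ^ a
  hα : 0 < c.α
  hY : 0 < c.Y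
  hφ : 0 < c.φ
  hφ' : c.φ ≤ 20 ^ d
  bd : ∀ θ ∈ c.Θ, Bd 3 (c.g θ)
  box : ∀ θ ∈ c.Θ, ∀ η, c.g θ η ≠ 0 → ∀ l, |c.M * η l - θ l| ≤ 2
  cen : ∀ θ ∈ c.Θ, ‖ct c.M θ‖ ≤ 13 / 4
  ene : ∀ θ ∈ c.Θ, en (c.g θ) ≤ c.K ^ a * c.α ^ 2
  cΘ : (#c.Θ : ℝ) ≤ c.K ^ a
  cA : (#c.A : ℝ) ≤ c.K ^ a
  sub : ∀ q, c.Lt q ⊆ c.Θ
  big : ∀ p ∈ c.A, c.α ≤ ‖Uu (fun η => ∑ θ ∈ c.Lt (cub (c.M ^ 3) p), c.g θ η) p‖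
  few : ∀ q, (#((c.Lt q).image (cap c.r c.M)) : ℝ) ≤ c.φ * c.r ^ d
  wg : WG B (c.r ^ 2) c.A
  cube : ∀ q, (#(c.A.filter fun p => cub (c.M ^ 3) p = q) : ℝ) ≤ c.K
  prof : ∀ p ∈ c.A, ∀ τ : ℝ, c.M ^ 2 ≤ τ → τ ≤ 2 * c.r * c.ρ →
    (#(c.A.filter fun p' => ‖p'.1 - p.1‖ ≤ 10 * τ ∧ |p'.2 - p.2| ≤ τ) : ℝ) * c.K ^ (d + 1) ≤
      (τ / c.r ^ 2) ^ ((d : ℝ) / 2)
  sep : ∀ p ∈ c.A, ∀ p' ∈ c.A, cub (c.M ^ 3) p = cub (c.M ^ 3) p' → c.r ^ 2 ≤ |p.2 - p'.2| →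
    ∀ θ ∈ c.Lt (cub (c.M ^ 3) p), 10 * d * c.K * |p.2 - p'.2| / c.r ≤ ‖p.1 - p'.1 - (2 * (p.2 - p'.2)) • ct c.M θ‖
  lt : ∀ p0 ∈ c.A, ∀ s : ℝ, c.ρ ≤ s → s ≤ c.W → ∃ S : Zd d → Set (E d),
    (∀ θ, MeasurableSet (S θ)) ∧ (∀ θ, Bornology.IsBounded (S θ)) ∧
    ∑ θ ∈ c.Θ, ∫ y in S θ, ‖Uu (c.g θ) (y, p0.2)‖ ^ 2 ≤ c.Y * s ^ d ∧
    ∀ p ∈ c.A, ∀ θ ∈ c.Lt (cub (c.M ^ 3) p), |p.2 - p0.2| ≤ 2 * c.r * s → |p.2 - p0.2| ≤ 2 * c.W →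
      ‖p.1 - (2 * (p.2 - p0.2)) • ct c.M θ - p0.1‖ ≤ 10 * d * s →
      Metric.ball (p.1 - (2 * (p.2 - p0.2)) • ct c.M θ) c.ρ ⊆ S θ
  loc : ∀ p ∈ c.A, ‖p.1 - c.z.1‖ ≤ d * c.T ∧ |p.2 - c.z.2| ≤ c.T
  top : ∑ θ ∈ c.Θ, lE (c.g θ) c.z (20 * d * c.T) ≤ c.En

/-- **[K56]** the count -/
def K56 (d : ℕ) : Prop := ∃ δ : ℝ, 0 < δ ∧ ∀ (a : ℕ) (B : ℝ), ∃ C : ℝ, 0 ≤ C ∧ ∀ c : Cfg d, c.Ok a B → C ≤ c.K →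
  (#c.A : ℝ) ≤ C * c.φ ^ δ * c.T * (c.En / c.α ^ 2) * (c.Y / c.α ^ 2) ^ ((2 : ℝ) / d) +
    C * c.K * (c.T / c.W) * (c.En / c.α ^ 2)

end

end Vale.Agent.P076N.K56
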