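import Vale.Agent.P076N.K56.Spec

/-! # P076N / K56 : the long range (row FAR) -/

set_option linter.all false

open MeasureTheory Finset

namespace Vale.Agent.P076N.K56

open Vale.Agent.P076 Vale.Agent.P076N

noncomputable section

variable {d : ℕ}

namespace Far

/-- `2 ^ (-|j - k|)` -/
def ee (j k : ℕ) : ℝ := (1 / 2) ^ (j - k) * (1 / 2) ^ (k - j)

theorem ee_nonneg (j k : ℕ) : 0 ≤ ee j k := by unfold ee; positivity

theorem geo (J : Finset ℕ) (g : ℕ → ℕ) (h : Set.InjOn g J) : ∑ j ∈ J, (1 / 2 : ℝ) ^ g j ≤ 2 := by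
  rw [← Finset.sum_image (f := fun i => (1 / 2 : ℝ) ^ i) h]
  exact (summable_geometric_two.sum_le_tsum _ fun i _ => by positivity).trans tsum_geometric_two.le

theorem ee_sum (J : Finset ℕ) (k : ℕ) : ∑ j ∈ J, ee j k ≤ 4 := by
  rw [← Finset.sum_filter_add_sum_filter_not J (fun j => j ≤ k)]
  have h1 : ∑ j ∈ J.filter (fun j => j ≤ k), ee j k ≤ 2 := by
    refine le_trans (Finset.sum_le_sum fun j hj => ?_) (geo (J.filter (fun j => j ≤ k)) (fun j => k - j) ?_)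
    · have := (Finset.mem_filter.1 hj).2
      unfold ee
      rw [Nat.sub_eq_zero_of_le this, pow_zero, one_mul]
    · intro i hi j hj h
      have h1 := (Finset.mem_filter.1 (Finset.mem_coe.1 hi)).2
      have h2 := (Finset.mem_filter.1 (Finset.mem_coe.1 hj)).2
      simp only at h
      omega
  have h2 : ∑ j ∈ J.filter (fun j => ¬ j ≤ k), ee j k ≤ 2 := by
    refine le_trans (Finset.sum_le_sum fun j hj => ?_) (geo (J.filter (fun j => ¬ j ≤ k)) (fun j => j - k) ?_)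
    · have := (Finset.mem_filter.1 hj).2
      unfold ee
      rw [Nat.sub_eq_zero_of_le (by omega : k ≤ j), pow_zero, mul_one]
    · intro i hi j hj h
      have h1 := (Finset.mem_filter.1 (Finset.mem_coe.1 hi)).2
      have h2 := (Finset.mem_filter.1 (Finset.mem_coe.1 hj)).2
      simp only at h
      omega
  linarith

theorem half (hd : 2 ≤ d) {x y : ℝ} (hx : 0 < x) (hy : x ≤ y) : x ^ ((d : ℝ) / 2) ≤ y ^ ((d : ℝ) / 2) * (x / y) := by
  have hy0 : 0 < y := hx.trans_le hy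
  have h1 : x ^ ((d : ℝ) / 2) = y ^ ((d : ℝ) / 2) * (x / y) ^ ((d : ℝ) / 2) := by
    rw [← Real.mul_rpow hy0.le (by positivity)]
    congr 1
    field_simp
  rw [h1]
  refine mul_le_mul_of_nonneg_left ?_ (by positivity)
  have h2 : (1 : ℝ) ≤ (d : ℝ) / 2 := by
    have : (2 : ℝ) ≤ d := by exact_mod_cast hd
    linarith
  calc (x / y) ^ ((d : ℝ) / 2) ≤ (x / y) ^ (1 : ℝ) :=
        Real.rpow_le_rpow_of_exponent_ge (by positivity) ((div_le_one hy0).2 hy) h2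
    _ = x / y := Real.rpow_one _

/-- the real inequality -/
theorem kk_le (hd : 2 ≤ d) {r ρ τ l : ℝ} (hr : 0 < r) (hρ : 0 < ρ) (hτ : 0 < τ) (hl : 0 ≤ l) {j k : ℕ}
    (h1 : τ ≤ 2 ^ k * (r * ρ)) (h2 : τ ≤ r * (2 ^ j * ρ)) (h3 : r * (2 ^ j * ρ) ≤ 2 * τ ∨ 2 ^ j * ρ ≤ 2 * l) :
    (r ^ 2 / τ) ^ ((d : ℝ) / 2) * ((1 + l * r / τ) ^ (d + 1))⁻¹ ≤
      2 ^ (d + 1) * ((2 ^ k * (r * ρ)) ^ ((d : ℝ) / 2) * ee j k / (2 ^ j * ρ) ^ d) := by
  set s : ℝ := 2 ^ j * ρ with hs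
  have hs0 : 0 < s := by positivity
  set X : ℝ := 2 ^ k * (r * ρ) with hX
  have hX0 : 0 < X := by positivity
  have a1 : r * s / (2 * τ) ≤ 1 + l * r / τ := by
    have h0 : 0 ≤ l * r / τ := by positivity
    rcases h3 with h | h
    · have : r * s / (2 * τ) ≤ 1 := (div_le_one (by positivity)).2 h
      linarith
    · have : r * s / (2 * τ) ≤ l * r / τ := by
        rw [div_le_div_iff₀ (by positivity) hτ]
        have := mul_le_mul_of_nonneg_left h (mul_pos hr hτ).le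
        nlinarith
      linarith
  have a2 : ((1 + l * r / τ) ^ (d + 1))⁻¹ ≤ ((r * s / (2 * τ)) ^ (d + 1))⁻¹ :=
    inv_anti₀ (by positivity) (pow_le_pow_left₀ (by positivity) a1 _)
  have a3 : (r ^ 2 / τ) ^ ((d : ℝ) / 2) = r ^ d / τ ^ ((d : ℝ) / 2) := by
    rw [Real.div_rpow (by positivity) hτ.le, ← Real.rpow_natCast r 2, ← Real.rpow_mul hr.le, ← Real.rpow_natCast r d]
    congr 2
    push_cast
    ring
  have a4 : τ ^ d = τ ^ ((d : ℝ) / 2) * τ ^ ((d : ℝ) / 2) := by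
    rw [← Real.rpow_add hτ, ← Real.rpow_natCast]
    congr 1
    ring
  have hp : 0 < τ ^ ((d : ℝ) / 2) := by positivity
  have a5 : r ^ d / τ ^ ((d : ℝ) / 2) * ((r * s / (2 * τ)) ^ (d + 1))⁻¹ =
      2 ^ (d + 1) * (τ ^ ((d : ℝ) / 2) * (τ / (r * s)) / s ^ d) := by
    rw [div_pow, mul_pow r s, mul_pow 2 τ, pow_succ τ, pow_succ r, pow_succ s, a4]
    field_simp
  have a6 : τ ^ ((d : ℝ) / 2) * (τ / (r * s)) ≤ X ^ ((d : ℝ) / 2) * ee j k := by
    rcases le_total j k with h | h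
    · obtain ⟨i, rfl⟩ := Nat.exists_eq_add_of_le h
      have e1 : ee j (j + i) = r * s / X := by
        unfold ee
        rw [Nat.sub_eq_zero_of_le h, Nat.add_sub_cancel_left, hs, hX, pow_add, pow_zero, one_div, inv_pow]
        field_simp
      have e2 : r * s ≤ X := by
        rw [hs, hX, pow_add]
        have : (1 : ℝ) ≤ 2 ^ i := one_le_pow₀ (by norm_num)
        have h5 : 0 < 2 ^ j * (r * ρ) := by positivity
        nlinarith
      have e3 := half hd (by positivity : 0 < r * s) e2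
      have e4 : τ ^ ((d : ℝ) / 2) ≤ (r * s) ^ ((d : ℝ) / 2) := Real.rpow_le_rpow hτ.le h2 (by positivity)
      have e5 : τ / (r * s) ≤ 1 := (div_le_one (by positivity)).2 h2
      rw [e1]
      calc τ ^ ((d : ℝ) / 2) * (τ / (r * s)) ≤ τ ^ ((d : ℝ) / 2) * 1 := mul_le_mul_of_nonneg_left e5 hp.le
        _ ≤ _ := by rw [mul_one]; exact e4.trans e3
    · obtain ⟨i, rfl⟩ := Nat.exists_eq_add_of_le h
      have e1 : ee (k + i) k = X / (r * s) := by
        unfold ee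
        rw [Nat.sub_eq_zero_of_le h, Nat.add_sub_cancel_left, hs, hX, pow_add, one_div, inv_pow]
        field_simp
      rw [e1]
      exact mul_le_mul (Real.rpow_le_rpow hτ.le h1 (by positivity))
        (div_le_div_of_nonneg_right h1 (by positivity)) (by positivity) (by positivity)
  rw [a3]
  calc r ^ d / τ ^ ((d : ℝ) / 2) * ((1 + l * r / τ) ^ (d + 1))⁻¹
      ≤ r ^ d / τ ^ ((d : ℝ) / 2) * ((r * s / (2 * τ)) ^ (d + 1))⁻¹ := mul_le_mul_of_nonneg_left a2 (by positivity)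
    _ = _ := a5
    _ ≤ _ := mul_le_mul_of_nonneg_left (div_le_div_of_nonneg_right a6 (by positivity)) (by positivity)

/-- the level of a far pair -/
theorem level (hd : 2 ≤ d) {r ρ τ l W : ℝ} (hr : 2 ≤ r) (hρ : 0 < ρ) (hl : 0 ≤ l) {n k : ℕ}
    (hn : 2 ^ n * ρ ≤ W) (hn' : W ≤ 2 * (2 ^ n * ρ)) (h0 : r * ρ < τ) (h1 : τ ≤ 2 ^ k * (r * ρ)) (h2 : τ ≤ W)
    (h3 : l ≤ W / 2) : ∃ j ∈ Finset.range (n + 1), (2 ^ j * ρ ≤ W ∧ τ ≤ r * (2 ^ j * ρ) ∧ l ≤ 2 ^ j * ρ) ∧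
      (r ^ 2 / τ) ^ ((d : ℝ) / 2) * ((1 + l * r / τ) ^ (d + 1))⁻¹ ≤
        2 ^ (d + 1) * ((2 ^ k * (r * ρ)) ^ ((d : ℝ) / 2) * ee j k / (2 ^ j * ρ) ^ d) := by
  classical
  have hr0 : 0 < r := by linarith
  have hτ : 0 < τ := (mul_pos hr0 hρ).trans h0
  have hP : τ ≤ r * (2 ^ n * ρ) ∧ l ≤ 2 ^ n * ρ := by
    have : 0 < 2 ^ n * ρ := by positivity
    constructor <;> nlinarith
  have hex : ∃ j : ℕ, τ ≤ r * (2 ^ j * ρ) ∧ l ≤ 2 ^ j * ρ := ⟨n, hP⟩
  have hj := Nat.find_spec hex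
  have hjn : Nat.find hex ≤ n := Nat.find_min' hex hP
  refine ⟨Nat.find hex, Finset.mem_range.2 (by omega), ⟨?_, hj⟩, kk_le hd hr0 hρ hτ hl h1 hj.1 ?_⟩
  · exact (mul_le_mul_of_nonneg_right (pow_le_pow_right₀ (by norm_num) hjn) hρ.le).trans hn
  · rcases Nat.eq_zero_or_eq_succ_pred (Nat.find hex) with h | h
    · rw [h] at hj
      have := hj.1
      rw [pow_zero, one_mul] at this
      linarith
    · have h5 := Nat.find_min hex (m := (Nat.find hex).pred) (by omega)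
      rw [h, pow_succ]
      rw [not_and_or, not_le, not_le] at h5
      rcases h5 with h5 | h5
      · left; nlinarith
      · right; nlinarith

/-- the geometry -/
theorem geom (hd : 2 ≤ d) (hb : BAS d) {c : Cfg d} {a : ℕ} {B C : ℝ} (ho : c.Ok a B) (hl : LF0 a C c)
    (hK : (d : ℝ) + 7 ≤ c.K) {T T' : Pk d} {p p' z : E d × ℝ} (hp : c.Anc p T) (hp' : c.Anc p' T') (hz : c.q z = T.q)
    (hv : T'.v = T.v) {s : ℝ} (hs : c.ρ ≤ s) (h1 : c.ta T T' ≤ c.r * s) (h2 : c.ta T T' ≤ c.W) (h3 : c.la T T' ≤ s) :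
    |p'.2 - z.2| ≤ 2 * c.r * s ∧ |p'.2 - z.2| ≤ 2 * c.W ∧
      ∀ θ, c.On θ T' → ‖p'.1 - (2 * (p'.2 - z.2)) • ct c.M θ - z.1‖ ≤ 10 * d * s := by
  have hd0 : (2 : ℝ) ≤ d := by exact_mod_cast hd
  have hK1 : 1 ≤ c.K := by linarith
  obtain ⟨s1, s2, s3, s4, s5, s6⟩ := ho.sizes hK1
  have hr1 : 1 ≤ c.r := by linarith
  have hM1 : 1 ≤ c.M := by linarith
  have hM3 : 0 < c.M ^ 3 := by positivity
  obtain ⟨a1, a2, -, a4⟩ := hl.anc p T hp
  obtain ⟨b1, b2, -, b4⟩ := hl.anc p' T' hp'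
  obtain ⟨c1, c2⟩ := (hb.cub (c.M ^ 3) p z hM3).1 (by
    have := hp.2.1
    unfold Cfg.q at this hz
    rw [hz, this])
  have hrM : 2 * c.r ^ 2 ≤ c.M ^ 3 := by
    have h5 := ho.hr
    have h6 : 9 * c.r ^ 2 ≤ c.M ^ 2 := by nlinarith
    have h7 : c.M ^ 2 ≤ c.M ^ 3 := pow_le_pow_right₀ hM1 (by norm_num)
    nlinarith [sq_nonneg c.r]
  have hMρ : ((d : ℝ) + 7) * c.M ^ 3 ≤ c.ρ := (mul_le_mul_of_nonneg_right hK hM3.le).trans ho.hM
  have hρ0 : 0 < c.ρ := by linarith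
  have hρr : c.ρ ≤ c.r * c.ρ := le_mul_of_one_le_left hρ0.le hr1
  have ht : |p'.2 - z.2| ≤ c.ta T T' + c.r * c.ρ := by
    have h5 : |c.tm T - c.tm T'| = c.ta T T' := rfl
    have h6 := abs_le.1 h5.le
    have h7 := abs_le.1 c2
    have h8 : 2 * c.M ^ 3 ≤ c.ρ := le_trans (mul_le_mul_of_nonneg_right (by linarith) hM3.le) hMρ
    rw [abs_le]
    constructor <;> linarith
  have hrs : c.r * c.ρ ≤ c.r * s := mul_le_mul_of_nonneg_left hs (by linarith)
  have ht1 : |p'.2 - z.2| ≤ 2 * c.r * s := by linarith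
  refine ⟨ht1, by have := ho.hρ; linarith, fun θ hθ => ?_⟩
  have hξ := hl.vs T.q T.v hp.2.2.2.1
  have hc := hb.cap c.r c.M θ (by linarith) (by linarith)
  rw [hθ.2, hv] at hc
  rw [hv] at b4
  have e : p'.1 - (2 * (p'.2 - z.2)) • ct c.M θ - z.1 =
      (p'.1 - (2 * (p'.2 - c.tm T')) • ct c.r T.v - c.r • ct 1 T'.o) -
      (c.r • ct 1 T.o - c.r • ct 1 T'.o - (2 * (c.tm T - c.tm T')) • ct c.r T.v) -
      (p.1 - (2 * (p.2 - c.tm T)) • ct c.r T.v - c.r • ct 1 T.o) + (p.1 - z.1) -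
      (2 * (p.2 - z.2)) • ct c.r T.v - (2 * (p'.2 - z.2)) • (ct c.M θ - ct c.r T.v) := by
    module
  have n1 : ‖(2 * (p.2 - z.2)) • ct c.r T.v‖ ≤ 7 * c.M ^ 3 := by
    rw [norm_smul, Real.norm_eq_abs, abs_mul, abs_two]
    have := mul_le_mul c2 hξ (norm_nonneg _) hM3.le
    calc 2 * |p.2 - z.2| * ‖ct c.r T.v‖ = 2 * (|p.2 - z.2| * ‖ct c.r T.v‖) := by ring
      _ ≤ _ := by linarith
  have n2 : ‖(2 * (p'.2 - z.2)) • (ct c.M θ - ct c.r T.v)‖ ≤ 4 * d * s := by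
    rw [norm_smul, Real.norm_eq_abs, abs_mul, abs_two]
    have hs0 : 0 < s := by linarith
    have hr0 : 0 < c.r := by linarith
    have h5 := mul_le_mul ht1 hc (norm_nonneg _) (by positivity)
    have h6 : 2 * c.r * s * (d / c.r) = 2 * d * s := by field_simp
    rw [h6] at h5
    calc 2 * |p'.2 - z.2| * ‖ct c.M θ - ct c.r T.v‖ = 2 * (|p'.2 - z.2| * ‖ct c.M θ - ct c.r T.v‖) := by ring
      _ ≤ 2 * (2 * d * s) := by linarith
      _ = _ := by ring
  have n3 : c.K * c.r ≤ s := by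
    have h5 : c.r ≤ c.M ^ 3 := s2.trans (le_self_pow₀ hM1 (by norm_num))
    have h6 := mul_le_mul_of_nonneg_left h5 (by linarith : 0 ≤ c.K)
    have := ho.hM
    linarith
  rw [e]
  have h3' : ‖c.r • ct 1 T.o - c.r • ct 1 T'.o - (2 * (c.tm T - c.tm T')) • ct c.r T.v‖ ≤ s := h3
  refine (norm_sub_le _ _).trans ?_
  refine (add_le_add_left (norm_sub_le _ _) _).trans ?_
  refine (add_le_add_left (add_le_add_left (norm_add_le _ _) _) _).trans ?_
  refine (add_le_add_left (add_le_add_left (add_le_add_left (norm_sub_le _ _) _) _) _).trans ?_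
  refine (add_le_add_left (add_le_add_left (add_le_add_left (add_le_add_left (norm_sub_le _ _) _) _) _) _).trans ?_
  have hs0 : 0 < s := by linarith
  have h9 : 2 * s ≤ d * s := mul_le_mul_of_nonneg_right hd0 hs0.le
  have h10 : (d + 7) * c.M ^ 3 = d * c.M ^ 3 + 7 * c.M ^ 3 := by ring
  have h11 : 4 * d * s = 4 * (d * s) := by ring
  have h12 : 10 * d * s = 10 * (d * s) := by ring
  linarith

end Far

open Far in
theorem far (d : ℕ) (hd : 2 ≤ d) (hb : BAS d) (hl : LF d) (hp : PAIR d) : FAR d := by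
  classical
  intro ε hε a B
  obtain ⟨CL, hCL, HL⟩ := hl a B
  obtain ⟨CP, hCP, HP⟩ := hp ε hε a B
  refine ⟨max (max CL CP) (max (16 * 2 ^ (d + 1)) (d + 7)), le_max_of_le_left (le_max_of_le_left hCL), fun c ho hK => ?_⟩
  have hL := HL c ho (le_trans (le_max_of_le_left (le_max_left _ _)) hK)
  have hP := HP c ho (le_trans (le_max_of_le_left (le_max_right _ _)) hK)
  have hK7 : (d : ℝ) + 7 ≤ c.K := le_trans (le_max_of_le_right (le_max_right _ _)) hK
  have hd0 : (2 : ℝ) ≤ d := by exact_mod_cast hd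
  have hK1 : 1 ≤ c.K := by linarith
  obtain ⟨s1, s2, s3, s4, s5, s6⟩ := ho.sizes hK1
  have hρ0 : 0 < c.ρ := by linarith
  have hr0 : 0 < c.r := by linarith
  have hz : ∀ q, ∃ p0 : E d × ℝ, (∃ p ∈ c.A, c.q p = q) → p0 ∈ c.A ∧ c.q p0 = q := by
    intro q
    by_cases h : ∃ p ∈ c.A, c.q p = q
    · obtain ⟨p, h1, h2⟩ := h
      exact ⟨p, fun _ => ⟨h1, h2⟩⟩
    · exact ⟨c.z, fun h' => absurd h' h⟩
  choose z hz using hz
  have hS : ∀ (q : Zd d × ℤ) (j : ℕ), ∃ S : Zd d → Set (E d), (∀ θ, MeasurableSet (S θ)) ∧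
      (∀ θ, Bornology.IsBounded (S θ)) ∧
      ∑ θ ∈ c.Θ, ∫ y in S θ, ‖Uu (c.g θ) (y, (z q).2)‖ ^ 2 ≤ c.Y * (2 ^ j * c.ρ) ^ d ∧
      (z q ∈ c.A → 2 ^ j * c.ρ ≤ c.W → ∀ p ∈ c.A, ∀ θ ∈ c.Lt (cub (c.M ^ 3) p),
        |p.2 - (z q).2| ≤ 2 * c.r * (2 ^ j * c.ρ) → |p.2 - (z q).2| ≤ 2 * c.W →
        ‖p.1 - (2 * (p.2 - (z q).2)) • ct c.M θ - (z q).1‖ ≤ 10 * d * (2 ^ j * c.ρ) →
        Metric.ball (p.1 - (2 * (p.2 - (z q).2)) • ct c.M θ) c.ρ ⊆ S θ) := by
    intro q j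
    by_cases h : z q ∈ c.A ∧ 2 ^ j * c.ρ ≤ c.W
    · obtain ⟨S, h1, h2, h3, h4⟩ := ho.lt (z q) h.1 (2 ^ j * c.ρ)
        (le_mul_of_one_le_left hρ0.le (one_le_pow₀ (by norm_num))) h.2
      exact ⟨S, h1, h2, h3, fun _ _ => h4⟩
    · refine ⟨fun _ => ∅, fun _ => MeasurableSet.empty, fun _ => Bornology.isBounded_empty, ?_,
        fun h1 h2 => absurd ⟨h1, h2⟩ h⟩
      have := ho.hY
      simp only [Measure.restrict_empty, integral_zero_measure, Finset.sum_const_zero]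
      positivity
  choose S hS1 hS2 hS3 hS4 using hS
  obtain ⟨n, hn1, hn2⟩ := exists_nat_pow_near ((one_le_div hρ0).2 s4) (by norm_num : (1 : ℝ) < 2)
  have hn : 2 ^ n * c.ρ ≤ c.W := (le_div_iff₀ hρ0).1 hn1
  have hn' : c.W ≤ 2 * (2 ^ n * c.ρ) := by
    have := (div_lt_iff₀ hρ0).1 hn2
    rw [pow_succ] at this
    linarith
  have hEv : ∀ q j v, 0 ≤ c.Ev (S q j) (z q).2 v := fun q j v =>
    Finset.sum_nonneg fun θ _ => integral_nonneg fun y => by positivity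
  have hW : ∀ k, 0 < c.Wk k := fun k => by unfold Cfg.Wk; positivity
  refine ⟨fun q v k => ∑ j ∈ Finset.range (n + 1),
    2 ^ (d + 1) * (c.Wk k ^ ((d : ℝ) / 2) * ee j k / (2 ^ j * c.ρ) ^ d) * (4 * c.Ev (S q j) (z q).2 v), ?_, ?_, ?_⟩
  · intro q v k
    refine Finset.sum_nonneg fun j _ => ?_
    have := hEv q j v
    have := ee_nonneg j k
    have := hW k
    positivity
  · intro q k
    rw [Finset.sum_comm]
    have hWk := hW k
    have hY := ho.hY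
    calc ∑ j ∈ Finset.range (n + 1), ∑ v ∈ c.V q,
          2 ^ (d + 1) * (c.Wk k ^ ((d : ℝ) / 2) * ee j k / (2 ^ j * c.ρ) ^ d) * (4 * c.Ev (S q j) (z q).2 v)
        ≤ ∑ j ∈ Finset.range (n + 1), (4 * 2 ^ (d + 1) * c.Y * c.Wk k ^ ((d : ℝ) / 2)) * ee j k := by
          refine Finset.sum_le_sum fun j _ => ?_
          rw [← Finset.mul_sum, ← Finset.mul_sum]
          have h1 : ∑ v ∈ c.V q, c.Ev (S q j) (z q).2 v ≤ c.Y * (2 ^ j * c.ρ) ^ d := by
            refine le_trans ?_ (hS3 q j)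
            unfold Cfg.Ev
            convert Finset.sum_fiberwise_le_sum_of_sum_fiber_nonneg (s := c.Θ) (t := c.V q) (g := cap c.r c.M)
              (f := fun θ => ∫ y in S q j θ, ‖Uu (c.g θ) (y, (z q).2)‖ ^ 2)
              fun y _ => Finset.sum_nonneg fun θ _ => integral_nonneg fun y => by positivity
          have h2 := ee_nonneg j k
          calc 2 ^ (d + 1) * (c.Wk k ^ ((d : ℝ) / 2) * ee j k / (2 ^ j * c.ρ) ^ d) *
                (4 * ∑ v ∈ c.V q, c.Ev (S q j) (z q).2 v)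
              ≤ 2 ^ (d + 1) * (c.Wk k ^ ((d : ℝ) / 2) * ee j k / (2 ^ j * c.ρ) ^ d) *
                (4 * (c.Y * (2 ^ j * c.ρ) ^ d)) := by gcongr
            _ = _ := by field_simp
      _ ≤ (4 * 2 ^ (d + 1) * c.Y * c.Wk k ^ ((d : ℝ) / 2)) * 4 := by
          rw [← Finset.mul_sum]
          exact mul_le_mul_of_nonneg_left (ee_sum _ k) (by positivity)
      _ = (16 * 2 ^ (d + 1)) * c.Y * c.Wk k ^ ((d : ℝ) / 2) := by ring
      _ ≤ _ := by
          have : (16 * 2 ^ (d + 1) : ℝ) ≤ max (max CL CP) (max (16 * 2 ^ (d + 1)) (d + 7)) :=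
            le_max_of_le_right (le_max_left _ _)
          gcongr
  · intro k F Sc hk hF hv hta hS0 hQ T hT
    have hfam : ∀ T ∈ F, T ∈ c.fam := fun T h => by
      have := hF h
      unfold Cfg.fam0 at this
      exact (Finset.mem_filter.1 this).1
    obtain ⟨p, hpT⟩ := c.mem_fam.1 (hfam T hT)
    obtain ⟨hz1, hz2⟩ := hz T.q ⟨p, hpT.1, hpT.2.1.symm⟩
    set Fj : ℕ → Finset (Pk d) := fun j => F.filter fun T' =>
      2 ^ j * c.ρ ≤ c.W ∧ c.ta T T' ≤ c.r * (2 ^ j * c.ρ) ∧ c.la T T' ≤ 2 ^ j * c.ρ with hFj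
    have hZ : ∀ j, c.Z (Fj j) ≤ Sc * (4 * c.Ev (S T.q j) (z T.q).2 T.v) := by
      intro j
      have h1 := hP (Fj j) T.v (z T.q).2 c.ρ (S T.q j) ((Finset.filter_subset _ _).trans hF)
        (fun T' h => hv T' (Finset.mem_filter.1 h).1 T hT) (hS1 _ _) (hS2 _ _) le_rfl ?_
      · have h2 := hQ (Fj j) (Finset.filter_subset _ _)
        have h3 := hEv T.q j T.v
        have h4 : 0 ≤ c.Z (Fj j) := Finset.sum_nonneg fun T' _ => (hL.fs T').2.1
        have h5 : c.Z (Fj j) ^ 2 ≤ Sc * (4 * c.Ev (S T.q j) (z T.q).2 T.v) * c.Z (Fj j) := by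
          have := mul_le_mul_of_nonneg_left h2 (by positivity : 0 ≤ 4 * c.Ev (S T.q j) (z T.q).2 T.v)
          nlinarith
        rcases h4.eq_or_lt with h | h
        · rw [← h]; positivity
        · rw [sq] at h5
          exact le_of_mul_le_mul_right h5 h
      · intro T' h
        obtain ⟨h1, h2, h3, h4⟩ := Finset.mem_filter.1 h
        obtain ⟨p', hp'⟩ := c.mem_fam.1 (hfam T' h1)
        obtain ⟨g1, g2, g3⟩ := geom hd hb ho hL hK7 hpT hp' hz2 (hv T' h1 T hT)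
          (le_mul_of_one_le_left hρ0.le (one_le_pow₀ (by norm_num))) h3 ((hta T hT T' h1).trans hk) h4
        refine ⟨p', hp', ?_, by linarith, fun θ hθ => hS4 T.q j hz1 h2 p' hp'.1 θ ?_ g1 g2 (g3 θ hθ)⟩
        · have h5 := mul_le_mul_of_nonneg_left g2 (by linarith : 0 ≤ c.K)
          have := ho.hW
          nlinarith
        · have h5 := hθ.1
          rw [hp'.2.1] at h5
          exact h5
    have hc : ∀ j, 0 ≤ (2 : ℝ) ^ (d + 1) * (c.Wk k ^ ((d : ℝ) / 2) * ee j k / (2 ^ j * c.ρ) ^ d) := fun j => by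
      have := ee_nonneg j k
      have := hW k
      positivity
    calc ∑ T' ∈ F.filter (fun T' => c.r * c.ρ < c.ta T T' ∧ c.la T T' ≤ c.W / 2), c.kk (d + 1) T T' * c.z2 T'
        ≤ ∑ T' ∈ F.filter (fun T' => c.r * c.ρ < c.ta T T' ∧ c.la T T' ≤ c.W / 2), ∑ j ∈ Finset.range (n + 1),
            if T' ∈ Fj j then 2 ^ (d + 1) * (c.Wk k ^ ((d : ℝ) / 2) * ee j k / (2 ^ j * c.ρ) ^ d) * c.z2 T' else 0 := by
          refine Finset.sum_le_sum fun T' h => ?_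
          obtain ⟨h1, h2, h3⟩ := Finset.mem_filter.1 h
          obtain ⟨j, hj, g1, g2⟩ := level hd (by linarith : 2 ≤ c.r) hρ0 (norm_nonneg _ : 0 ≤ c.la T T') hn hn' h2
            (hta T hT T' h1) ((hta T hT T' h1).trans hk) h3
          have h4 := (hL.fs T').2.1
          refine le_trans ?_ (Finset.single_le_sum (f := fun j => if T' ∈ Fj j then
            2 ^ (d + 1) * (c.Wk k ^ ((d : ℝ) / 2) * ee j k / (2 ^ j * c.ρ) ^ d) * c.z2 T' else 0) (fun i _ => ?_) hj)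
          · rw [if_pos (Finset.mem_filter.2 ⟨h1, g1⟩)]
            exact mul_le_mul_of_nonneg_right g2 h4
          · split_ifs
            · exact mul_nonneg (hc i) h4
            · exact le_rfl
      _ ≤ ∑ T' ∈ F, ∑ j ∈ Finset.range (n + 1),
            if T' ∈ Fj j then 2 ^ (d + 1) * (c.Wk k ^ ((d : ℝ) / 2) * ee j k / (2 ^ j * c.ρ) ^ d) * c.z2 T' else 0 := by
          refine Finset.sum_le_sum_of_subset_of_nonneg (Finset.filter_subset _ _) fun T' _ _ => ?_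
          refine Finset.sum_nonneg fun i _ => ?_
          split_ifs
          · exact mul_nonneg (hc i) (hL.fs T').2.1
          · exact le_rfl
      _ = ∑ j ∈ Finset.range (n + 1),
            2 ^ (d + 1) * (c.Wk k ^ ((d : ℝ) / 2) * ee j k / (2 ^ j * c.ρ) ^ d) * c.Z (Fj j) := by
          rw [Finset.sum_comm]
          refine Finset.sum_congr rfl fun j _ => ?_
          rw [← Finset.sum_filter, Finset.filter_mem_eq_inter, Finset.inter_eq_right.2 (Finset.filter_subset _ _),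
            ← Finset.mul_sum]
          rfl
      _ ≤ _ := by
          rw [Finset.mul_sum]
          refine Finset.sum_le_sum fun j _ => ?_
          have := mul_le_mul_of_nonneg_left (hZ j) (hc j)
          linarith

end

end Vale.Agent.P076N.K56
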