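import Vale.Agent.P076N.K56.Defs
import Vale.Agent.P076N.KEY.Spec1
import Vale.Agent.P076.R2.H45.Kern
import Mathlib.Analysis.Calculus.BumpFunction.InnerProduct

/-!
# P076N / K56 : packets, the rows (as `Prop`s) and the assembly `k56_of` (notes/P076/k56.md)
-/

set_option linter.all false

open MeasureTheory Finset
open scoped ComplexConjugate

namespace Vale.Agent.P076N.K56

open Vale.Agent.P076 Vale.Agent.P076N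
open Vale.Agent.P076.R2.H45 (Ker)

noncomputable section

variable {d : ℕ}

/-- bounded, measurable, bounded support -/
def Nice (f : E d → ℂ) : Prop := ∃ R : ℝ, Bd R f

/-- the frequency data of the solution which equals `f` at the time `t` -/
def An (f : E d → ℂ) (t : ℝ) (η : E d) : ℂ := ∫ y, f y * conj (ph y t 0 η)

/-- the bump: `1` on the ball of radius `3 (d + 1)`, zero outside the ball of radius `6 (d + 1)` -/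
def bb (d : ℕ) : ContDiffBump (0 : E d) :=
  ⟨3 * (d + 1), 6 * (d + 1), by positivity, by have : (0 : ℝ) < d + 1 := by positivity
                                               linarith⟩

/-- the bump at the scale `1 / s` around `k / s` -/
def bs (s : ℝ) (k : Zd d) (η : E d) : ℝ := bb d (s • (η - ct s k))

/-- the size of the kernel -/
def kb (N : ℕ) (s : ℝ) (ξ z : E d) (t : ℝ) : ℝ :=
  (s ^ d)⁻¹ * (1 + |t| / s ^ 2) ^ (-((d : ℝ) / 2)) * ((1 + ‖z - (2 * t) • ξ‖ / (s + |t| / s)) ^ N)⁻¹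

open Classical in
/-- the lattice points in a ball -/
def lat (y : E d) (κ : ℝ) : Finset (Zd d) :=
  (Fintype.piFinset fun l => Finset.Icc ⌈y l - κ⌉ ⌊y l + κ⌋).filter fun o => ‖y - ct 1 o‖ ≤ κ

theorem mem_lat {y : E d} {κ : ℝ} {o : Zd d} : o ∈ lat y κ ↔ ‖y - ct 1 o‖ ≤ κ := by
  unfold lat
  rw [Finset.mem_filter]
  refine ⟨fun h => h.2, fun h => ⟨Fintype.mem_piFinset.2 fun l => ?_, h⟩⟩
  have h1 : |y l - o l| ≤ κ := by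
    have h2 := PiLp.norm_apply_le (y - ct 1 o) l
    have h3 : (y - ct 1 o) l = y l - o l := by simp [ct]
    rw [h3, Real.norm_eq_abs] at h2
    exact h2.trans h
  rw [abs_le] at h1
  rw [Finset.mem_Icc, Int.ceil_le, Int.le_floor]
  constructor <;> linarith

/-- the spatial cell of side `r` -/
def cel (r : ℝ) (o : Zd d) : Set (E d) := {y | ∀ l, ⌊y l / r⌋ = o l}

/-- a packet: cube, time cell, cap, spatial cell -/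
@[ext] structure Pk (d : ℕ) where
  q : Zd d × ℤ
  I : ℤ
  v : Zd d
  o : Zd d

namespace Cfg

variable (c : Cfg d)

/-- the cube of a point -/
def q (p : E d × ℝ) : Zd d × ℤ := cub (c.M ^ 3) p

/-- the time cell of a point -/
def I (p : E d × ℝ) : ℤ := ⌊p.2 / c.r ^ 2⌋

open Classical in
/-- the caps of a cube -/
def V (q : Zd d × ℤ) : Finset (Zd d) := (c.Lt q).image (cap c.r c.M)

open Classical in
/-- the light part in a cap -/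
def L (q : Zd d × ℤ) (v : Zd d) (η : E d) : ℂ := ∑ θ ∈ (c.Lt q).filter fun θ => cap c.r c.M θ = v, c.g θ η

/-- the time of a packet -/
def tm (T : Pk d) : ℝ := c.r ^ 2 * T.I

/-- the packet at its time -/
def f (T : Pk d) : E d → ℂ := (cel c.r T.o).indicator fun y => Uu (c.L T.q T.v) (y, c.tm T)

/-- the energy of a packet -/
def z2 (T : Pk d) : ℝ := en (c.f T)

/-- the position of `p`, moved to the time `t` along the cap `v`, in units of `r` -/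
def ps (p : E d × ℝ) (t : ℝ) (v : Zd d) : E d := (c.r)⁻¹ • (p.1 - (2 * (p.2 - t)) • ct c.r v)

/-- the distance of a point to the tube of a packet, in units of `r` -/
def ds (p : E d × ℝ) (T : Pk d) : ℝ := ‖c.ps p (c.tm T) T.v - ct 1 T.o‖

/-- `p` is an anchor of the packet `T` -/
def Anc (p : E d × ℝ) (T : Pk d) : Prop :=
  p ∈ c.A ∧ T.q = c.q p ∧ T.I = c.I p ∧ T.v ∈ c.V T.q ∧ c.ds p T ≤ c.K

open Classical in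
/-- the packets near the points -/
def fam : Finset (Pk d) := c.A.biUnion fun p => (c.V (c.q p)).biUnion fun v =>
  (lat (c.ps p (c.r ^ 2 * c.I p) v) c.K).image fun o => ⟨c.q p, c.I p, v, o⟩

theorem mem_fam {T : Pk d} : T ∈ c.fam ↔ ∃ p, c.Anc p T := by
  unfold fam
  simp only [Finset.mem_biUnion, Finset.mem_image, mem_lat]
  constructor
  · rintro ⟨p, hp, v, hv, o, ho, rfl⟩
    exact ⟨p, hp, rfl, rfl, hv, ho⟩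
  · rintro ⟨p, hp, h1, h2, h3, h4⟩
    refine ⟨p, hp, T.v, h1 ▸ h3, T.o, ?_, Pk.ext h1.symm h2.symm rfl rfl⟩
    unfold ds tm at h4
    rwa [h2] at h4

open Classical in
/-- the packets which are not tiny -/
def fam0 (ε : ℝ) : Finset (Pk d) := c.fam.filter fun T => ε * c.α ^ 2 ≤ c.r ^ d * c.z2 T

/-- the frequency data of a packet -/
def pk (T : Pk d) (η : E d) : ℂ := (bs c.r T.v η : ℝ) * An (c.f T) (c.tm T) η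

/-- the sum of packets -/
def hh (F : Finset (Pk d)) (η : E d) : ℂ := ∑ T ∈ F, c.pk T η

/-- the cell `θ` takes part in the packet `T` -/
def On (θ : Zd d) (T : Pk d) : Prop := θ ∈ c.Lt T.q ∧ cap c.r c.M θ = T.v

/-- the component `θ` of the test vector of a packet -/
def t1 (θ : Zd d) (T : Pk d) (η : E d) : ℂ := (bs c.M θ η : ℝ) * An (c.f T) (c.tm T) η

open Classical in
/-- the component `θ` of the test vector of a family -/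
def tv (F : Finset (Pk d)) (θ : Zd d) (η : E d) : ℂ := ∑ T ∈ F.filter (c.On θ), c.t1 θ T η

/-- the square norm of the test vector -/
def Q (F : Finset (Pk d)) : ℝ := ∑ θ ∈ c.Θ, en (c.tv F θ)

/-- the energy of a family -/
def Z (F : Finset (Pk d)) : ℝ := ∑ T ∈ F, c.z2 T

open Classical in
/-- the Gram entries -/
def Gm (T T' : Pk d) : ℝ :=
  ∑ θ ∈ c.Θ.filter fun θ => c.On θ T ∧ c.On θ T', ‖∫ η, c.t1 θ T η * conj (c.t1 θ T' η)‖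

/-- the distance in time -/
def ta (T T' : Pk d) : ℝ := |c.tm T - c.tm T'|

/-- the lateral distance -/
def la (T T' : Pk d) : ℝ := ‖c.r • ct 1 T.o - c.r • ct 1 T'.o - (2 * (c.tm T - c.tm T')) • ct c.r T.v‖

/-- the size of the Gram entries -/
def kk (N : ℕ) (T T' : Pk d) : ℝ :=
  (c.r ^ 2 / c.ta T T') ^ ((d : ℝ) / 2) * ((1 + c.la T T' * c.r / c.ta T T') ^ N)⁻¹

/-- the windows -/
def Wk (k : ℕ) : ℝ := 2 ^ k * (c.r * c.ρ)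

/-- the parameter of a window -/
def w (k : ℕ) : ℝ := c.Y * c.Wk k ^ ((d : ℝ) / 2) / c.α ^ 2

/-- the energy in the sets `S θ` at the time `t`, in the cap `v` -/
def Ev (S : Zd d → Set (E d)) (t : ℝ) (v : Zd d) : ℝ :=
  open Classical in ∑ θ ∈ c.Θ.filter fun θ => cap c.r c.M θ = v, ∫ y in S θ, ‖Uu (c.g θ) (y, t)‖ ^ 2

theorem Ok.sizes {c : Cfg d} {a : ℕ} {B : ℝ} (h : c.Ok a B) (hK : 1 ≤ c.K) :
    c.K ≤ c.r ∧ c.r ≤ c.M ∧ c.M ≤ c.ρ ∧ c.ρ ≤ c.W ∧ c.W ≤ c.T ∧ c.T ≤ c.K ^ a := by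
  have h1 : c.K ≤ c.K ^ 3 := le_self_pow₀ hK (by norm_num)
  have h2 : c.K ≤ c.r := h1.trans h.hK
  have h3 : c.r ≤ c.M := by have := h.hr; linarith
  have h4 : 1 ≤ c.M := by linarith
  have h5 : c.M ≤ c.M ^ 3 := le_self_pow₀ h4 (by norm_num)
  have h6 : c.M ^ 3 ≤ c.K * c.M ^ 3 := le_mul_of_one_le_left (by positivity) hK
  have h7 : c.M ≤ c.ρ := by have := h.hM; linarith
  have h8 : c.ρ ≤ c.r * c.ρ := le_mul_of_one_le_left (by linarith) (by linarith)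
  exact ⟨h2, h3, h7, h8.trans h.hρ, h.hT, h.hTa⟩

end Cfg

/-- the cubes are adjacent -/
def Adj (T T' : Pk d) : Prop := (∀ l, |T.q.1 l - T'.q.1 l| ≤ 1) ∧ |T.q.2 - T'.q.2| ≤ 1

/-- for all admissible data with large `K` -/
def Al (d : ℕ) (P : ℕ → ℝ → Cfg d → Prop) : Prop :=
  ∀ (a : ℕ) (B : ℝ), ∃ C : ℝ, 1 ≤ C ∧ ∀ c : Cfg d, c.Ok a B → C ≤ c.K → P a C c

/-! ## rows without `Cfg` -/

/-- **[K.KER]** the kernel bound -/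
def KER (d : ℕ) : Prop := ∀ a : E d → ℝ, ContDiff ℝ (⊤ : ℕ∞) a → HasCompactSupport a → ∀ N : ℕ, ∃ C : ℝ, 0 ≤ C ∧
  ∀ (s : ℝ) (ξ z : E d) (t : ℝ), 0 < s → ‖Ker (fun η => a (s • (η - ξ))) z t‖ ≤ C * kb N s ξ z t

/-- **[K.REP1]** Plancherel and Fubini -/
structure REP1 (d : ℕ) : Prop where
  an : ∀ (f : E d → ℂ) (t : ℝ), Nice f → Continuous (An f t) ∧ (∃ b : ℝ, ∀ η, ‖An f t η‖ ≤ b) ∧
    MemLp (An f t) 2 volume ∧ en (An f t) = en f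
  sum : ∀ (ι : Type) (F : Finset ι) (f : ι → E d → ℂ) (t : ℝ) (η : E d), (∀ i ∈ F, Nice (f i)) →
    An (fun y => ∑ i ∈ F, f i y) t η = ∑ i ∈ F, An (f i) t η
  evo : ∀ (V : E d → ℝ) (f : E d → ℂ) (t0 : ℝ) (p : E d × ℝ), Continuous V → HasCompactSupport V → Nice f →
    Uu (fun η => (V η : ℝ) * An f t0 η) p = ∫ y, Ker V (p.1 - y) (p.2 - t0) * f y
  gram : ∀ (V : E d → ℝ) (f f' : E d → ℂ) (t t' κ : ℝ), Continuous V → HasCompactSupport V → Nice f → Nice f' →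
    0 ≤ κ → (∀ y y', f y ≠ 0 → f' y' ≠ 0 → ‖Ker V (y' - y) (t' - t)‖ ≤ κ) →
    ‖∫ η, (V η : ℝ) * (An f t η * conj (An f' t' η))‖ ≤ κ * (∫ y, ‖f y‖) * ∫ y, ‖f' y‖
  pair : ∀ (f G : E d → ℂ) (t : ℝ), Nice f → Integrable G →
    ∫ η, G η * conj (An f t η) = ∫ y, Uu G (y, t) * conj (f y)

/-- **[K.REP2]** the multiplier is a convolution -/
def REP2 (d : ℕ) : Prop := ∀ a : E d → ℝ, ContDiff ℝ (⊤ : ℕ∞) a → HasCompactSupport a →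
  ∀ (s : ℝ) (ξ : E d) (τ : ℝ), 0 < s → Continuous (fun z => Ker (fun η => a (s • (η - ξ))) z τ) ∧
    Integrable (fun z => Ker (fun η => a (s • (η - ξ))) z τ) ∧
    ∀ (G : E d → ℂ) (x : E d) (t0 : ℝ), Integrable G →
      Uu (fun η => (a (s • (η - ξ)) : ℝ) * G η) (x, t0 + τ) =
        ∫ y, Ker (fun η => a (s • (η - ξ))) (x - y) τ * Uu G (y, t0)

open Classical in
/-- **[K.BAS]** lattice sums, cells, caps, bumps -/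
structure BAS (d : ℕ) : Prop where
  card : ∀ (y : E d) (κ : ℝ), 0 ≤ κ → (#(lat y κ) : ℝ) ≤ (2 * κ + 1) ^ d
  lsum : ∃ C : ℝ, 0 ≤ C ∧ ∀ (y : E d) (J : Finset (Zd d)), ∑ o ∈ J, ((1 + ‖y - ct 1 o‖) ^ (d + 1))⁻¹ ≤ C
  isum : ∃ C : ℝ, 0 ≤ C ∧ ∀ (s : ℝ) (x : E d), 0 < s →
    Integrable (fun y : E d => ((1 + ‖x - y‖ / s) ^ (d + 1))⁻¹) ∧ ∫ y : E d, ((1 + ‖x - y‖ / s) ^ (d + 1))⁻¹ ≤ C * s ^ d
  cel : ∀ (r : ℝ) (o : Zd d), 0 < r → MeasurableSet (cel r o) ∧ Bornology.IsBounded (cel r o) ∧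
    volume (cel r o) = ENNReal.ofReal (r ^ d) ∧ ∀ y ∈ cel r o, ‖y - r • ct 1 o‖ ≤ d * r
  cap : ∀ (r M : ℝ) (θ : Zd d), 0 < r → 0 < M → ‖ct M θ - ct r (cap r M θ)‖ ≤ d / r
  bump : ∀ (s : ℝ) (k : Zd d), 0 < s → Continuous (bs s k) ∧ HasCompactSupport (bs s k) ∧
    ∀ η, 0 ≤ bs s k η ∧ bs s k η ≤ 1 ∧ (‖s • (η - ct s k)‖ ≤ 3 * (d + 1) → bs s k η = 1) ∧
      (bs s k η ≠ 0 → ‖s • (η - ct s k)‖ ≤ 6 * (d + 1))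
  ovl : ∀ (s : ℝ) (J : Finset (Zd d)) (η : E d), 0 < s →
    (#(J.filter fun k => bs s k η ≠ 0) : ℝ) ≤ (12 * (d + 1) + 1) ^ d
  cub : ∀ (s : ℝ) (p p' : E d × ℝ), 0 < s →
    (cub s p = cub s p' → ‖p.1 - p'.1‖ ≤ d * s ∧ |p.2 - p'.2| ≤ s) ∧
    (|(cub s p).2 - (cub s p').2| ≤ 1 → |p.2 - p'.2| ≤ 2 * s) ∧
    (|p.2 - p'.2| ≤ s → |(cub s p).2 - (cub s p').2| ≤ 1) ∧
    (‖p.1 - p'.1‖ ≤ s → ∀ l, |(cub s p).1 l - (cub s p').1 l| ≤ 1)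

/-- **[K.BLK]** almost orthogonality of blocks -/
def BLK (d : ℕ) : Prop := ∀ (ι β : Type) [DecidableEq β] (F : Finset ι) (u : ι → E d → ℂ) (b : ι → β)
  (nr : β → β → Prop) [DecidableRel nr] (m : ℝ),
  (∀ i ∈ F, MemLp (u i) 2 volume) → (∀ x y, nr x y → nr y x) →
  (∀ x ∈ F.image b, (#((F.image b).filter (nr x)) : ℝ) ≤ m) →
  en (fun η => ∑ i ∈ F, u i η) ≤ m * ∑ x ∈ F.image b, en (fun η => ∑ i ∈ F.filter (fun i => b i = x), u i η) +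
    ∑ i ∈ F, ∑ j ∈ F.filter (fun j => ¬ nr (b i) (b j)), ‖∫ η, u i η * conj (u j η)‖

open Classical in
/-- **[K.LIN]** the linear bound; `m` bounds the size of the clusters -/
def LIN (d : ℕ) : Prop := ∃ ω : ℝ, 0 ≤ ω ∧ ω < 2 / (d + 2) ∧ ∀ B : ℝ, ∃ C : ℝ, 0 ≤ C ∧
  ∀ (K m a : ℝ) (h : E d → ℂ) (A : Finset (E d × ℝ)), 1 ≤ K → 1 ≤ m → 0 ≤ a → Bd (7 / 2) h → Gph B A →
    (#A : ℝ) ≤ K → (∀ p ∈ A, a ≤ ‖Uu h p‖) →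
    (∀ p ∈ A, (#(A.filter fun p' => |p'.2 - p.2| ≤ K ^ 2 ∧ ‖p'.1 - p.1‖ ≤ K ^ 3) : ℝ) ≤ m) →
    a ^ 2 * #A ≤ C * m ^ ω * en h

/-! ## rows on `Cfg` -/

open Classical in
/-- basic facts on the data -/
structure LF0 (a : ℕ) (C : ℝ) (c : Cfg d) : Prop where
  gs : ∀ θ ∈ c.Θ, (∀ p, ‖Uu (c.g θ) p‖ ≤ C * c.K ^ a * c.α) ∧
    ∀ η, c.g θ η ≠ 0 → ‖c.M • (η - ct c.M θ)‖ ≤ 3 * (d + 1)
  Ls : ∀ q v, Bd 3 (c.L q v) ∧ (∀ p, ‖Uu (c.L q v) p‖ ≤ C * c.K ^ (2 * a) * c.α) ∧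
    ∀ η, c.L q v η ≠ 0 → ‖c.r • (η - ct c.r v)‖ ≤ 3 * (d + 1)
  vs : ∀ q, ∀ v ∈ c.V q, ‖ct c.r v‖ ≤ 27 / 8
  cv : ∀ q, (#(c.V q) : ℝ) ≤ c.φ * c.r ^ d ∧ (#(c.V q) : ℝ) ≤ c.K ^ a
  fs : ∀ T, Nice (c.f T) ∧ 0 ≤ c.z2 T ∧ (∀ y, c.f T y ≠ 0 → y ∈ cel c.r T.o) ∧
    ∫ y, ‖c.f T y‖ ≤ √(c.r ^ d) * √(c.z2 T)
  ort : ∀ F : Finset (Pk d), (∀ T ∈ F, ∀ T' ∈ F, T.q = T'.q ∧ T.I = T'.I ∧ T.v = T'.v) →
    en (fun η => ∑ T ∈ F, An (c.f T) (c.tm T) η) = c.Z F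
  anc : ∀ p T, c.Anc p T → 0 ≤ p.2 - c.tm T ∧ p.2 - c.tm T ≤ c.r ^ 2 ∧ ‖p.1 - c.r • ct 1 T.o‖ ≤ 8 * c.r ^ 2 ∧
    ‖p.1 - (2 * (p.2 - c.tm T)) • ct c.r T.v - c.r • ct 1 T.o‖ ≤ c.K * c.r
  c1 : ∀ p v, (#(c.fam.filter fun T => c.Anc p T ∧ T.v = v) : ℝ) ≤ (3 * c.K) ^ d
  c2 : ∀ q v, (#(c.fam.filter fun T => T.q = q ∧ T.v = v) : ℝ) ≤ c.K ^ (1 + 2 * d)
  c3 : ∀ v, (#(c.fam.filter fun T => T.v = v) : ℝ) ≤ c.K ^ (a + 2 * d)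

/-- **[K.LF]** basic facts on the data -/
def LF (d : ℕ) : Prop := Al d LF0

/-- **[K.PT1]** the size of one packet -/
def PT1 (d : ℕ) : Prop := ∀ N : ℕ, Al d fun _ C c => ∀ (T : Pk d) (p : E d × ℝ), |p.2 - c.tm T| ≤ c.r ^ 2 →
  ‖Uu (c.pk T) p‖ ≤ C * √(c.z2 T / c.r ^ d) * ((1 + c.ds p T) ^ N)⁻¹

open Classical in
/-- **[K.PT2]** the decomposition into packets -/
def PT2 (d : ℕ) : Prop := Al d fun _ _ c => ∀ p ∈ c.A,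
  7 / 8 * c.α ≤ ‖∑ T ∈ c.fam.filter (fun T => T.q = c.q p ∧ T.I = c.I p), Uu (c.pk T) p‖

/-- **[K.ENP]** the energy of a sum of packets of one cell -/
def ENP (d : ℕ) : Prop := Al d fun _ C c => ∀ F ⊆ c.fam, (∀ T ∈ F, ∀ T' ∈ F, T.q = T'.q ∧ T.I = T'.I) →
  Bd (7 / 2) (c.hh F) ∧ en (c.hh F) ≤ C * c.Z F ∧ ∀ p, Uu (c.hh F) p = ∑ T ∈ F, Uu (c.pk T) p

/-- **[K.TAIL]** localisation at the time `t0` -/
def TAIL (d : ℕ) : Prop := ∀ b : ℕ, Al d fun _ _ c => ∀ (T : Pk d) (p : E d × ℝ) (θ : Zd d) (t0 R : ℝ) (S : Set (E d)),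
  c.Anc p T → c.On θ T → MeasurableSet S → Bornology.IsBounded S → c.ρ ≤ R → c.K * |p.2 - t0| ≤ 2 * c.M * R →
  |p.2 - t0| ≤ 2 * c.T → Metric.ball (p.1 - (2 * (p.2 - t0)) • ct c.M θ) R ⊆ S → ∀ x ∈ cel c.r T.o,
    ‖Uu (fun η => (bs c.M θ η : ℝ) * An (S.indicator fun y => Uu (c.g θ) (y, t0)) t0 η) (x, c.tm T) -
      Uu (c.g θ) (x, c.tm T)‖ ≤ c.α / c.K ^ b

/-- **[K.PAIR]** the Bessel inequality -/
def PAIR (d : ℕ) : Prop := ∀ ε : ℝ, 0 < ε → Al d fun _ _ c =>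
  ∀ (F : Finset (Pk d)) (v : Zd d) (t0 R : ℝ) (S : Zd d → Set (E d)), F ⊆ c.fam0 ε → (∀ T ∈ F, T.v = v) →
    (∀ θ, MeasurableSet (S θ)) → (∀ θ, Bornology.IsBounded (S θ)) → c.ρ ≤ R →
    (∀ T ∈ F, ∃ p, c.Anc p T ∧ c.K * |p.2 - t0| ≤ 2 * c.M * R ∧ |p.2 - t0| ≤ 2 * c.T ∧
      ∀ θ, c.On θ T → Metric.ball (p.1 - (2 * (p.2 - t0)) • ct c.M θ) R ⊆ S θ) →
    c.Z F ^ 2 ≤ 4 * c.Ev S t0 v * c.Q F

/-- **[K.ONE]** one cube -/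
def ONE (d : ℕ) : Prop := Al d fun _ C c => ∀ F ⊆ c.fam, (∀ T ∈ F, ∀ T' ∈ F, T.q = T'.q ∧ T.v = T'.v) →
  c.Q F ≤ C * c.Z F

open Classical in
/-- **[K.NEAR]** adjacent cubes -/
def NEAR (d : ℕ) : Prop := Al d fun _ C c => ∀ F ⊆ c.fam, (∀ T ∈ F, ∀ T' ∈ F, T.v = T'.v) →
  c.Q F ≤ C * c.Z F + ∑ T ∈ F, ∑ T' ∈ F.filter (fun T' => ¬ Adj T T'), c.Gm T T'

/-- **[K.GRAM]** the Gram entries -/
def GRAM (d : ℕ) : Prop := ∀ N : ℕ, Al d fun _ C c => ∀ T ∈ c.fam, ∀ T' ∈ c.fam, T.v = T'.v →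
  (c.M ^ 2 ≤ c.ta T T' → c.Gm T T' ≤ C * c.kk N T T' * (√(c.z2 T) * √(c.z2 T'))) ∧
  (c.ta T T' ≤ c.M ^ 2 → ¬ Adj T T' → c.Gm T T' ≤ (c.K ^ N)⁻¹ * (√(c.z2 T) * √(c.z2 T')))

open Classical in
/-- **[K.MID]** the middle range -/
def MID (d : ℕ) : Prop := Al d fun a C c => ∀ T ∈ c.fam,
  ∑ T' ∈ c.fam.filter (fun T' => T'.v = T.v ∧ c.M ^ 2 ≤ c.ta T T' ∧ c.ta T T' ≤ c.r * c.ρ),
    c.kk (a + 2 * d) T T' ≤ C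

open Classical in
/-- **[K.FAR]** the long range -/
def FAR (d : ℕ) : Prop := ∀ ε : ℝ, 0 < ε → Al d fun _ C c => ∃ D : Zd d × ℤ → Zd d → ℕ → ℝ, (∀ q v k, 0 ≤ D q v k) ∧
  (∀ q k, ∑ v ∈ c.V q, D q v k ≤ C * c.Y * c.Wk k ^ ((d : ℝ) / 2)) ∧
  ∀ (k : ℕ) (F : Finset (Pk d)) (S : ℝ), c.Wk k ≤ c.W → F ⊆ c.fam0 ε → (∀ T ∈ F, ∀ T' ∈ F, T.v = T'.v) →
    (∀ T ∈ F, ∀ T' ∈ F, c.ta T T' ≤ c.Wk k) → 0 ≤ S → (∀ F' ⊆ F, c.Q F' ≤ S * c.Z F') → ∀ T ∈ F,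
    ∑ T' ∈ F.filter (fun T' => c.r * c.ρ < c.ta T T' ∧ c.la T T' ≤ c.W / 2), c.kk (d + 1) T T' * c.z2 T' ≤
      S * D T.q T.v k

/-- **[K.REC]** the recursion -/
def REC (d : ℕ) : Prop := ∀ ε : ℝ, 0 < ε → Al d fun _ C c => ∃ D : Zd d × ℤ → Zd d → ℕ → ℝ, (∀ q v k, 0 ≤ D q v k) ∧
  (∀ q k, ∑ v ∈ c.V q, D q v k ≤ C * c.Y * c.Wk k ^ ((d : ℝ) / 2)) ∧
  ∀ (k : ℕ) (F : Finset (Pk d)), c.Wk k ≤ c.W → F ⊆ c.fam0 ε → (∀ T ∈ F, ∀ T' ∈ F, T.v = T'.v) →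
    (∀ T ∈ F, ∀ T' ∈ F, c.ta T T' ≤ c.Wk k) → (∀ T ∈ F, k = 0 ∨ D T.q T.v k ≤ c.z2 T) → c.Q F ≤ C * c.Z F

/-- **[K.WIN]** the sum over the windows -/
def WIN (d : ℕ) : Prop := ∀ ε : ℝ, 0 < ε → Al d fun _ C c => ∀ (F : Finset (Pk d)) (s S : ℝ), F ⊆ c.fam0 ε →
  0 < s → s ≤ c.T → 0 ≤ S →
  (∀ F' ⊆ F, (∀ T ∈ F', ∀ T' ∈ F', T.v = T'.v) → (∀ T ∈ F', ∀ T' ∈ F', c.ta T T' ≤ s) → c.Q F' ≤ S * c.Z F') →
  c.Z F ≤ C * S * (c.T / s) * c.En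

open Classical in
/-- **[K.CLS]** the class of a point -/
def CLS (d : ℕ) : Prop := ∀ (σ : ℝ) (a : ℕ) (B : ℝ), 0 < σ → σ ≤ 1 / 2 → ∃ ε : ℝ, 0 < ε ∧ ∀ C0 : ℝ, 0 ≤ C0 →
  ∃ c1 C : ℝ, 0 < c1 ∧
  ∀ c : Cfg d, c.Ok a B → C ≤ c.K → ∀ (D : Zd d × ℤ → Zd d → ℕ → ℝ) (cl : Pk d → ℕ), (∀ q v k, 0 ≤ D q v k) →
    (∀ q k, ∑ v ∈ c.V q, D q v (k + 1) ≤ C0 * c.w k * c.α ^ 2) → (∀ T, c.Wk (cl T) ≤ c.W) →
    (∀ T, c.Wk (cl T + 1) ≤ c.W → c.z2 T ≤ D T.q T.v (cl T + 1)) → ∀ p ∈ c.A, ∃ k : ℕ, c.Wk k ≤ c.W ∧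
      ((c.W < c.Wk (k + 1) ∧
          c.α / 4 ≤ ‖∑ T ∈ (c.fam0 ε).filter (fun T => T.q = c.q p ∧ T.I = c.I p ∧ cl T = k), Uu (c.pk T) p‖) ∨
        (c.Wk (k + 1) ≤ c.W ∧ c1 ≤ c.φ * c.w k ∧ c1 * c.w k ^ (-σ) * c.α ≤
          ‖∑ T ∈ (c.fam0 ε).filter (fun T => T.q = c.q p ∧ T.I = c.I p ∧ cl T = k), Uu (c.pk T) p‖))

/-- **[K.CNT]** the count in one cell -/
def CNT (d : ℕ) : Prop := ∃ σ e : ℝ, 0 < σ ∧ σ ≤ 1 / 2 ∧ e < 2 / d ∧ ∀ c1 C0 : ℝ, 0 < c1 → 0 ≤ C0 → Al d fun _ C c =>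
  ∀ (q : Zd d × ℤ) (I : ℤ) (F : Finset (Pk d)) (A' : Finset (E d × ℝ)), F ⊆ c.fam → (∀ T ∈ F, T.q = q ∧ T.I = I) →
    A' ⊆ c.A → (∀ p ∈ A', c.q p = q ∧ c.I p = I) →
    ((∀ p ∈ A', c.α / 4 ≤ ‖∑ T ∈ F, Uu (c.pk T) p‖) → c.α ^ 2 * #A' ≤ C * c.K * c.Z F) ∧
    ∀ (w : ℝ) (D : Zd d → ℝ), c1 ≤ w → (∀ v, 0 ≤ D v) → (∀ T ∈ F, c.z2 T ≤ D T.v) →
      ∑ v ∈ c.V q, D v ≤ C0 * w * c.α ^ 2 → (∀ p ∈ A', c1 * w ^ (-σ) * c.α ≤ ‖∑ T ∈ F, Uu (c.pk T) p‖) →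
      c.α ^ 2 * #A' ≤ C * w ^ e * c.Z F

open Classical in
/-- **[K57]** the count in one cube, in the language of `KEY/Spec1` -/
def K57 (d : ℕ) : Prop := ∃ δ : ℝ, 0 < δ ∧ ∀ (ψ : E d → ℝ) (a : ℕ) (B : ℝ), KEY.Prt ψ → ∃ C : ℝ, 0 ≤ C ∧
  ∀ (K r M ρ W T α Y En φ Λ : ℝ) (g : E d → ℂ) (A : Finset (E d × ℝ)) (Lt : Zd d × ℤ → Finset (Zd d)) (z : E d × ℝ),
    C ≤ K → K ^ 3 ≤ r → 3 * r ≤ M → K * M ^ 3 ≤ ρ → K * W ≤ M * ρ → r * ρ ≤ W → W ≤ T → T ≤ K ^ a →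
    0 < α → 0 < Y → 0 < φ → Bd 3 g → en g ≤ K ^ a * α ^ 2 → en g ≤ K ^ a * Λ → (#A : ℝ) ≤ K ^ a →
    (∀ q, Lt q ⊆ KEY.Th d M) → (∀ p ∈ A, α ≤ ‖Uu (KEY.cs ψ M (Lt (cub (M ^ 3) p)) g) p‖) →
    (∀ q, (#((Lt q).image (cap r M)) : ℝ) ≤ φ * r ^ d) → WG B (r ^ 2) A →
    (∀ q, (#(A.filter fun p => cub (M ^ 3) p = q) : ℝ) ≤ K) →
    (∀ p ∈ A, ∀ τ : ℝ, M ^ 2 ≤ τ → τ ≤ 2 * r * ρ →
      (#(A.filter (KEY.Nb (10 * τ) p)) : ℝ) * K ^ (d + 1) ≤ (τ / r ^ 2) ^ ((d : ℝ) / 2)) →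
    (∀ p ∈ A, ∀ p' ∈ A, cub (M ^ 3) p = cub (M ^ 3) p' → r ^ 2 ≤ |p.2 - p'.2| → ∀ θ ∈ Lt (cub (M ^ 3) p),
      10 * d * K * |p.2 - p'.2| / r ≤ ‖p.1 - p'.1 - (2 * (p.2 - p'.2)) • KEY.ce M θ‖) →
    (∀ p ∈ A, ∀ θ ∈ Lt (cub (M ^ 3) p), lE (KEY.cp ψ M θ g) p (5 * ρ) ≤ Λ * (5 * ρ) ^ d) →
    (∀ p ∈ A, ∀ s : ℝ, ρ ≤ s → s ≤ 11 * d * W → KEY.Dn ψ M Λ g p s ≤ Y) →
    (∀ p ∈ A, ‖p.1 - z.1‖ ≤ d * T ∧ |p.2 - z.2| ≤ T) →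
    ∑ θ ∈ KEY.Th d M, lE (KEY.cp ψ M θ g) z (20 * d * T) ≤ En →
    (#A : ℝ) ≤ C * φ ^ δ * T * (En / α ^ 2) * (Y / α ^ 2) ^ ((2 : ℝ) / d) + C * K * (T / W) * (En / α ^ 2)

/-- the rows -/
structure Rows : Prop where
  ker : ∀ d, KEY.KER d → KER d
  rep1 : ∀ d, REP1 d
  rep2 : ∀ d, KER d → BAS d → REP2 d
  bas : ∀ d, BAS d
  blk : ∀ d, BLK d
  lin : ∀ d, 2 ≤ d → KEY.TTS d → LIN d
  lf : ∀ d, 2 ≤ d → REP1 d → BAS d → LF d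
  pt1 : ∀ d, 2 ≤ d → KER d → REP1 d → BAS d → LF d → PT1 d
  pt2 : ∀ d, 2 ≤ d → KER d → REP1 d → REP2 d → BAS d → LF d → PT2 d
  enp : ∀ d, 2 ≤ d → REP1 d → BAS d → LF d → ENP d
  tail : ∀ d, 2 ≤ d → KER d → REP1 d → REP2 d → BAS d → LF d → TAIL d
  pair : ∀ d, 2 ≤ d → REP1 d → BAS d → LF d → TAIL d → PAIR d
  one : ∀ d, 2 ≤ d → KER d → REP1 d → BAS d → BLK d → LF d → ONE d
  near : ∀ d, 2 ≤ d → REP1 d → BAS d → BLK d → LF d → ONE d → NEAR d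
  gram : ∀ d, 2 ≤ d → KER d → REP1 d → BAS d → LF d → GRAM d
  mid : ∀ d, 2 ≤ d → LF d → MID d
  far : ∀ d, 2 ≤ d → BAS d → LF d → PAIR d → FAR d
  rec' : ∀ d, 2 ≤ d → LF d → NEAR d → GRAM d → MID d → FAR d → REC d
  win : ∀ d, 2 ≤ d → LF d → PAIR d → WIN d
  cls : ∀ d, 2 ≤ d → BAS d → LF d → PT1 d → PT2 d → CLS d
  cnt : ∀ d, 2 ≤ d → BAS d → LF d → LIN d → PT1 d → ENP d → CNT d
  fin : ∀ d, 2 ≤ d → LF d → REC d → WIN d → CLS d → CNT d → K56 d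
  brg : ∀ d, 2 ≤ d → KEY.BAS d → KEY.FS d → BAS d → K56 d → K57 d

theorem k56_of (h : Rows) (d : ℕ) (hd : 2 ≤ d) (hk : KEY.KER d) (ht : KEY.TTS d) : K56 d := by
  have ker := h.ker d hk
  have r1 := h.rep1 d
  have bas := h.bas d
  have r2 := h.rep2 d ker bas
  have blk := h.blk d
  have lf := h.lf d hd r1 bas
  have pt1 := h.pt1 d hd ker r1 bas lf
  have pair := h.pair d hd r1 bas lf (h.tail d hd ker r1 r2 bas lf)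
  exact h.fin d hd lf
    (h.rec' d hd lf (h.near d hd r1 bas blk lf (h.one d hd ker r1 bas blk lf)) (h.gram d hd ker r1 bas lf) (h.mid d hd lf)
      (h.far d hd bas lf pair))
    (h.win d hd lf pair) (h.cls d hd bas lf pt1 (h.pt2 d hd ker r1 r2 bas lf))
    (h.cnt d hd bas lf (h.lin d hd ht) pt1 (h.enp d hd r1 bas lf))

theorem k57_of (h : Rows) (d : ℕ) (hd : 2 ≤ d) (hb : KEY.BAS d) (hf : KEY.FS d) (hk : KEY.KER d) (ht : KEY.TTS d) :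
    K57 d := h.brg d hd hb hf (h.bas d) (k56_of h d hd hk ht)

end

end Vale.Agent.P076N.K56
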